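import Vale.Agent.P141.H639.CostCen

/-!
# P141, CE: the price of the centre atoms with one low vector edge on one box

`BoxLow`: label vertex `x₂`, gauge on the edge `(x₁, x₃)` of the moving slot `F2`, both vector edges
in uniform slots; one vector edge is lower by the factor `β`, gain `β ^ (1 / 8)`.
-/

namespace Vale.Agent.P141.H664

open Finset
open Vale.Agent.P141.PL (Pt)
open Vale.Agent.P141.PL.H315 (iv)
open Vale.Agent.P141.H48 (US ES)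
open Vale.Agent.P141.H572 (cosF)
open Vale.Agent.P141.H639 (cenf)
open Vale.Agent.P141.H971 (Cen)

noncomputable section

/-- **One box, one low vector edge**, the gauge in the moving slot. -/
def BoxLow : Prop :=
  ∀ c η : ℝ, 0 ≤ c → c ≤ 1 → 0 < η → η ≤ 1 / 40 →
  ∀ Kt e cP e0 : ℝ, 0 < Kt → 1 ≤ e → 0 ≤ cP → 0 < e0 → ∃ C : ℝ, 0 ≤ C ∧
  ∀ t : ℝ, 0 < t → t ≤ 1 → ∀ (n : ℕ) (ez : ℝ) (F1 F2 F3 : ℕ → Pt → ℝ),
    US n (Kt * t ^ (1 - c)) e cP F1 → US n (Kt * t ^ (1 - c)) e cP F3 → ES n ez cP F2 →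
  ∀ o : ℤ, o = 1 ∨ o = -1 → ∀ K ≤ n, ∀ (x : Pt)
    (V : Type) [NormedAddCommGroup V] [InnerProductSpace ℝ V] [FiniteDimensional ℝ V]
    (h p W β : ℝ) (g : ℤ → ℤ → ℝ) (u v : ℤ → ℤ → V), 0 ≤ h → 0 ≤ p → 0 ≤ W → 0 < β → β ≤ 1 →
    Cen (iv K x.1) (iv K x.2.2) (iv K x.2.1) h p e0 W g u v →
    ((∀ z ∈ iv K x.2.1, ∀ y ∈ iv K x.1, ‖u z y‖ ^ 2 ≤ β ^ 2 * (h ^ 2 * e0)) ∨
      ∀ z ∈ iv K x.2.1, ∀ y ∈ iv K x.2.2, ‖v z y‖ ^ 2 ≤ β ^ 2 * (h ^ 2 * e0)) →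
    cosF o K x (cenf 1 0 2 g u v) (fun k _ => F1 k) (fun k _ => F2 k) (fun k _ => F3 k) ≤
      C * (t ^ (1 - c - η) * β ^ (1 / 8 : ℝ) * (√h * (p ^ 2 * √p)) * √ez * 8 ^ K)

end

end Vale.Agent.P141.H664
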