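import Vale.Agent.P141.H639.CenSt
import Vale.Agent.P141.H664.LowDef

/-!
# P141, CE: the costs of the centre atoms, gauge in the moving slot

`ceB_posG`, `costCR_cenG`, `cost_cenG`: 639's `ceB_pos`, `costCR_cen`, `cost_cen` for the base position
`(1, 0, 2)` (the moving slot sits on the edge of the gauge).
-/

namespace Vale.Agent.P141.H664

open Finset Vale.Agent.P141.PL Vale.Agent.P141.PL.H560 Vale.Agent.P141.H48
open Vale.Agent.P141.PL (Pt el fc)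
open Vale.Agent.P141.PL.H321 (t12 t23)
open Vale.Agent.P141.PL.H315 (avg cube3 put le)
open Vale.Agent.P141.PL.H95 (gr)
open Vale.Agent.P141.PL.H855 (wN TT wN_congr update_apply_node)
open Vale.Agent.P141.H347.Tr (cmN)
open Vale.Agent.P141.H347.Gs (kap kap_self kap_ne Ex e2 e2_pos cwG)
open Vale.Agent.P141.H414 (sf jf cf usl_cf cf_good cmN_eq)
open Vale.Agent.P141.H444 (alR alv_alR esl_alR kl_alR rgN rgn_rgN nd_rgN en_of_stat su_of_stat
  usl_of_su esl_mono l2c csz_fc_7)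
open Vale.Agent.P141.H572 (cosF)
open Vale.Agent.P141.H736 (Cls Blw val cost stcP Stat noneS vals_nonempty)
open Vale.Agent.P141.H922 (n2)
open Vale.Agent.P141.H639

noncomputable section

open scoped Classical

variable {V : Type*} [NormedAddCommGroup V] [InnerProductSpace ℝ V]
variable {K : ℕ} {P : Finset ℤ → Finset ℤ → (ℤ → ℤ → ℝ) → Prop}
  {Q R : Finset ℤ → Finset ℤ → (ℤ → ℤ → V) → Prop}

/-- the position of the label, the moving slot is `p` -/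
def gl (p : Fin 3) : Fin 3 := match p with
  | 0 => 0
  | 1 => 1
  | 2 => 2

/-- the split vertex -/
def gm (p : Fin 3) : Fin 3 := match p with
  | 0 => 1
  | 1 => 0
  | 2 => 0

/-- the third vertex -/
def gn (p : Fin 3) : Fin 3 := match p with
  | 0 => 2
  | 1 => 2
  | 2 => 1

theorem dis_g (p : Fin 3) : Dis (gl p) (gm p) (gn p) := by revert p; decide

/-- **the three positions of the moving slot** -/
theorem ceB_posG {t e X : ℝ} (h : CeB K t e X (CenC K P Q R 1 0 2)) {n : ℕ} (hn : K ≤ n)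
    {F : Fin 3 → ℕ → Pt → ℝ} (p : Fin 3) (hU : ∀ j, j ≠ p → US n t e 52 (F j))
    (hE : ES n e 52 (F p)) {o : ℤ} (ho : o = 1 ∨ o = -1) (x : Pt) (f : Pt → ℝ)
    (hf : CenC K P Q R (gl p) (gm p) (gn p) x f) :
    cosF o K x f (fun k _ => F 0 k) (fun k _ => F 1 k) (fun k _ => F 2 k) ≤ X := by
  obtain rfl | rfl | rfl := fin3 p
  · have h1 := h n hn (F 1) (F 0) (fun k => s23 (F 2 k)) (hU 1 (by decide)) hE
      (H414.US.s23 (hU 2 (by decide))) o ho (t12 x) _ (cen_t12 hf)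
    exact (cosF_t12 o K x f (fun k _ => F 0 k) (fun k _ => F 1 k) (fun k _ => F 2 k)) ▸ h1
  · exact h n hn _ _ _ (hU 0 (by decide)) hE (hU 2 (by decide)) o ho x f hf
  · have h1 := h n hn (fun k => s23 (F 0 k)) (F 2) (F 1) (H414.US.s23 (hU 0 (by decide))) hE
      (hU 1 (by decide)) o ho (t23 x) _ (cen_t23 hf)
    exact (cosF_t23 o K x f (fun k _ => F 0 k) (fun k _ => F 1 k) (fun k _ => F 2 k)) ▸ h1

/-- **The box costs of one role**, static companions on the alive cells, `jf i p` the moving slot. -/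
theorem costCR_cenG {T0 : ℝ} (hT1 : 1 ≤ T0) (hT : CmpSt 7 T0) {t e X : ℝ} (ht : 0 ≤ t)
    (hte : t ^ 2 ≤ e) (h : CeB K (T0 * t) (T0 ^ 2 * e) X (CenC K P Q R 1 0 2)) {σ : ℤ}
    {al : ℕ → ℤ → Prop} (hal : Alv 7 σ al) {n : ℕ} (hn : K ≤ n) {f : Fin 4 → ℤ → ℝ} (i : Fin 4)
    (p : Fin 3) (hE : ∀ j, ESl 7 σ al n e (f (jf i j)))
    (hU : ∀ j, j ≠ p → USl 7 σ al n (fc (jf i j)) t (f (jf i j))) {o : ℤ} (ho : o = 1 ∨ o = -1) :
    CostCR i o K X (CenC K P Q R (gl p) (gm p) (gn p)) (fun k _ j => kl al (f j) k) := by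
  have he : 0 ≤ e := (sq_nonneg t).trans hte
  intro x w hw
  simp only [cmN_eq]
  refine ceB_posG (F := sf al f i) h hn p (fun j hj => ?_) ?_ ho x w hw
  · have g := cf_good i j
    exact (hT σ al hal n (cf i j) g.1 g.2.1 g.2.2.1 g.2.2.2.1 g.2.2.2.2.1 g.2.2.2.2.2 e
      (f (jf i j)) he (hE j)).2 t ht hte (usl_cf i j (hU j hj))
  · have g := cf_good i p
    have h1 := (hT σ al hal n (cf i p) g.1 g.2.1 g.2.2.1 g.2.2.2.1 g.2.2.2.2.1 g.2.2.2.2.2 e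
      (f (jf i p)) he (hE p)).1
    refine es_mono ?_ h1
    have : T0 * e ≤ T0 ^ 2 * e := mul_le_mul_of_nonneg_right (by nlinarith) he
    exact this

/-- **THE COST OF A CENTRE ATOM IN ANY POSITION**, for every class `kap z`, every role, both
orientations, from the box cost in the position `(1, 0, 2)`. -/
theorem cost_cenG (hP : Clo P) (hQ : Clo Q) (hR : Clo R) {T0 : ℝ} (hT1 : 1 ≤ T0)
    (hT : CmpSt 7 T0) {σ : ℤ} {t : ℝ} {ht : 0 < t} {E : ℝ} {hE : 0 ≤ E} {e : ℝ} (hEe : E ≤ e)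
    (hte : t ^ 2 ≤ e) {X : ℝ} (hX : 0 ≤ X)
    (h : CeB K (T0 * t) (T0 ^ 2 * e) X (CenC K P Q R 1 0 2)) (z r : Fin 4) {o : ℤ}
    (ho : o = 1 ∨ o = -1) {l m n : Fin 3} (hd : Dis l m n) {p : Pt} {f : Pt → ℝ}
    (hf : CenC K P Q R l m n p f) (x : ℤ) :
    cost (kap σ t ht E hE z) o r (pfw (fc r) K p f) K ((gr 7 σ).cube K x) ≤
      1521 ^ 2 * (8 * X) := by
  refine csSup_le (vals_nonempty _ o r _ K x) ?_
  rintro v ⟨𝒩, A, hb, hA, rfl⟩
  obtain ⟨pz, O, h1, h2, h3⟩ := kap_stat z r hA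
  have hRg := rgn_rgN hb
  have hW := nd_rgN hb
  have e1 : H736.val o r (pfw (fc r) K p f) 𝒩 A = ∑ N ∈ 𝒩, |wN o (Function.update
      (fun l => kl (alR K (rgN σ K 𝒩)) (O l) N.1) r (pfw (fc r) K p f)) N| := by
    unfold H736.val TT
    refine sum_congr rfl fun N hN => ?_
    rw [update_apply_node]
    congr 1
    refine wN_congr ho fun j y hy => ?_
    have hy' := (hb N hN).2.2.1 hy
    by_cases hj : j = r
    · subst hj
      rw [Function.update_self, Function.update_self]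
    · rw [Function.update_of_ne hj, Function.update_of_ne hj, h1 j hj N hN y hy']
      refine (kl_alR ?_).symm
      exact (hRg.const _ _ _ hy').2 (hW N hN).2.2
  rw [e1]
  have hcost : CostCR r o K X (CenC K P Q R (gl pz) (gm pz) (gn pz))
      (fun k _ j => kl (alR K (rgN σ K 𝒩)) (O j) k) :=
    costCR_cenG hT1 hT ht.le hte h (alv_alR hRg) le_rfl r pz
      (fun j => esl_mono hEe (h2 j)) h3 ho
  exact cen_node hP hQ hR hX r hd (dis_g pz) _ hcost hf 𝒩 fun N hN =>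
    ⟨(hb N hN).1, (hb N hN).2.1⟩

/-! ### The costs of the level -/

/-- the bound of a low vector edge is inherited -/
theorem clo_low {B : ℝ} (hB : 0 ≤ B) :
    Clo (V := V) fun I J u => ∀ z ∈ I, ∀ y ∈ J, ‖u z y‖ ^ 2 ≤ B :=
  clo_pt (θ := fun w : V => ‖w‖ ^ 2) (by simpa using hB)

/-- **The costs of the level from one box**, one low vector edge. -/
def LowSt : Prop :=
  ∀ c η : ℝ, 0 ≤ c → c ≤ 1 → 0 < η → η ≤ 1 / 40 → ∀ Kc e0 : ℝ, 0 < Kc → 0 < e0 → ∃ C : ℝ,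
  0 ≤ C ∧
  ∀ e : Ex, e.K = Kc → e.c = c → ∀ (σ : ℤ) (r : Fin 4) (j k : ℕ) (x : ℤ) (q : Pt)
    (l m n : Fin 3), Dis l m n →
    ∀ (V : Type) [NormedAddCommGroup V] [InnerProductSpace ℝ V] [FiniteDimensional ℝ V]
    (h p W β : ℝ) (g : ℤ → ℤ → ℝ) (u v : ℤ → ℤ → V), 0 ≤ h → 0 ≤ p → 0 ≤ W → 0 < β → β ≤ 1 →
    H971.Cen (PL.H315.iv k (co m q)) (PL.H315.iv k (co n q)) (PL.H315.iv k (co l q)) h p e0 W g
      u v →
    ((∀ z ∈ PL.H315.iv k (co l q), ∀ y ∈ PL.H315.iv k (co m q),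
        ‖u z y‖ ^ 2 ≤ β ^ 2 * (h ^ 2 * e0)) ∨
      ∀ z ∈ PL.H315.iv k (co l q), ∀ y ∈ PL.H315.iv k (co n q),
        ‖v z y‖ ^ 2 ≤ β ^ 2 * (h ^ 2 * e0)) →
    ((e.mp j).cw σ r).cst (pfw (fc r) k q (cenf l m n g u v)) k ((gr 7 σ).cube k x) ≤
      C * (e2 (-(1 - c - η)) j * β ^ (1 / 8 : ℝ) * (√h * (p ^ 2 * √p)) * 8 ^ k)

theorem lowSt_of_box (H : BoxLow) : LowSt := by
  intro c η hc0 hc1 hη0 hη1 Kc e0 hKc he0
  set T0 : ℝ := H437.TT with hT0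
  have hT : CmpSt 7 T0 := H437.cmpT
  have hT1 : 1 ≤ T0 := by
    rw [hT0]
    unfold H437.TT
    norm_num
  set e1 : ℝ := 1 + Kc + Kc ^ 2 with he1
  have he1' : 1 ≤ e1 := by rw [he1]; nlinarith [sq_nonneg Kc]
  have hTe : 1 ≤ T0 ^ 2 * e1 := one_le_mul_of_one_le_of_one_le (one_le_pow₀ hT1) he1'
  obtain ⟨C, hC, H⟩ := H c η hc0 hc1 hη0 hη1 (T0 * Kc) (T0 ^ 2 * e1) 52 e0
    (mul_pos (by linarith) hKc) hTe (by norm_num) he0
  refine ⟨8 * (1521 ^ 2 * (8 * (C * √(T0 ^ 2 * e1)))), by positivity, ?_⟩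
  intro e heK hec σ r j k x q l m n hd V _ _ _ h p W β g u v hh hp hW hβ0 hβ1 hcen hlow
  set t : ℝ := e2 (-1) j with ht
  have ht0 : 0 < t := e2_pos _ _
  have ht1 : t ≤ 1 := e2_neg_one_le j
  set X : ℝ := C * (t ^ (1 - c - η) * β ^ (1 / 8 : ℝ) * (√h * (p ^ 2 * √p)) *
    √(T0 ^ 2 * e1) * 8 ^ k) with hX
  have hX0 : 0 ≤ X := by
    have h1 : 0 ≤ t ^ (1 - c - η) := Real.rpow_nonneg ht0.le _
    have h2 : 0 ≤ β ^ (1 / 8 : ℝ) := Real.rpow_nonneg hβ0.le _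
    positivity
  have htc : (e.mp j).t = Kc * t ^ (1 - c) := by
    show e.K * e2 (-(1 - e.c)) j = _
    rw [heK, hec, ht, e2_neg_one_rpow]
  have htc1 : t ^ (1 - c) ≤ 1 := Real.rpow_le_one ht0.le ht1 (by linarith)
  have htc0 : 0 < t ^ (1 - c) := Real.rpow_pos_of_pos ht0 _
  have hE : (e.mp j).E ≤ e1 := by
    show e.K ≤ e1
    rw [heK, he1]
    nlinarith [sq_nonneg Kc]
  have hte : (e.mp j).t ^ 2 ≤ e1 := by
    rw [htc, mul_pow, he1]
    have h1 : (t ^ (1 - c)) ^ 2 ≤ 1 := pow_le_one₀ htc0.le htc1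
    nlinarith [sq_nonneg Kc, mul_le_mul_of_nonneg_left h1 (sq_nonneg Kc)]
  have hB0 : 0 ≤ β ^ 2 * (h ^ 2 * e0) := by positivity
  obtain ⟨h1, h2, h3⟩ := cen_iff.1 hcen
  -- the cost in one class
  have key : ∀ a : Fin 4 × Bool, cost (((e.mp j).cw σ r).κ a) (((e.mp j).cw σ r).o a) r
      (pfw (fc r) k q (cenf l m n g u v)) k ((gr 7 σ).cube k x) ≤ 1521 ^ 2 * (8 * X) := by
    intro a
    rcases hlow with hlow | hlow
    · have hB : CeB k (T0 * (e.mp j).t) (T0 ^ 2 * e1) X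
          (CenC k (PCen h p) (fun I J (u : ℤ → ℤ → V) => QCen h p e0 W I J u ∧
            ∀ z ∈ I, ∀ y ∈ J, ‖u z y‖ ^ 2 ≤ β ^ 2 * (h ^ 2 * e0)) (RCen h p e0 W) 1 0 2) := by
        rintro n' hn' F1 F2 F3 f1 f2 f3 o ho y f ⟨g', u', v', rfl, ha, hb, hc'⟩
        have e1' : T0 * (e.mp j).t = T0 * Kc * t ^ (1 - c) := by rw [htc]; ring
        rw [e1'] at f1 f3
        exact H t ht0 ht1 n' _ F1 F2 F3 f1 f3 f2 o ho k hn' y V h p W β g' u' v' hh hp hW hβ0 hβ1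
          (cen_iff.2 ⟨ha, hb.1, hc'⟩) (Or.inl hb.2)
      exact cost_cenG (clo_pcen hh hp) ((clo_qcen hh hp he0.le hW).and (clo_low hB0))
        (clo_rcen hh hp he0.le hW) hT1 hT hE hte hX0 hB a.1 r (((e.mp j).cw σ r).ho a) hd
        ⟨g, u, v, rfl, h1, ⟨h2, hlow⟩, h3⟩ x
    · have hB : CeB k (T0 * (e.mp j).t) (T0 ^ 2 * e1) X
          (CenC k (PCen h p) (QCen h p e0 W) (fun I J (v : ℤ → ℤ → V) => RCen h p e0 W I J v ∧
            ∀ z ∈ I, ∀ y ∈ J, ‖v z y‖ ^ 2 ≤ β ^ 2 * (h ^ 2 * e0)) 1 0 2) := by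
        rintro n' hn' F1 F2 F3 f1 f2 f3 o ho y f ⟨g', u', v', rfl, ha, hb, hc'⟩
        have e1' : T0 * (e.mp j).t = T0 * Kc * t ^ (1 - c) := by rw [htc]; ring
        rw [e1'] at f1 f3
        exact H t ht0 ht1 n' _ F1 F2 F3 f1 f3 f2 o ho k hn' y V h p W β g' u' v' hh hp hW hβ0 hβ1
          (cen_iff.2 ⟨ha, hb, hc'.1⟩) (Or.inr hc'.2)
      exact cost_cenG (clo_pcen hh hp) (clo_qcen hh hp he0.le hW)
        ((clo_rcen hh hp he0.le hW).and (clo_low hB0)) hT1 hT hE hte hX0 hB a.1 r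
        (((e.mp j).cw σ r).ho a) hd ⟨g, u, v, rfl, h1, h2, ⟨h3, hlow⟩⟩ x
  have e2' : ((e.mp j).cw σ r).cst (pfw (fc r) k q (cenf l m n g u v)) k
      ((gr 7 σ).cube k x) ≤ ∑ _a : Fin 4 × Bool, 1521 ^ 2 * (8 * X) := by
    refine sum_le_sum fun a _ => ?_
    have : ((e.mp j).cw σ r).nrm a = 1 := rfl
    rw [this, div_one]
    exact key a
  refine e2'.trans (le_of_eq ?_)
  rw [sum_const, card_univ, Fintype.card_prod, Fintype.card_fin, Fintype.card_bool, nsmul_eq_mul,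
    hX, ht, e2_neg_one_rpow]
  push_cast
  ring

end

end Vale.Agent.P141.H664
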