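import Vale.Agent.P141.H664.LowTop
import Vale.Agent.P141.H120.BoxL

/-!
# P141, CE: the price with one low vector edge

`cenStL3 : H927.CenStL3` and `cenStL2 : H927.CenStL2`, unconditional: the box price
`H120.box_low`, the costs of the level (`cenStL3_of_box`) and the bridge of H927.
-/

namespace Vale.Agent.P141.H664

/-- **The box price**, in the letters of `BoxLow`. -/
theorem boxLow : BoxLow := H120.box_low

/-- **The centre atoms with one low vector edge in the costs of the level.** -/
theorem cenStL3 : H927.CenStL3 := cenStL3_of_box boxLow

/-- **The centre atoms with one low vector edge, letters of the skeleton.** -/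
theorem cenStL2 : H927.CenStL2 := cenStL2_of_box boxLow

end Vale.Agent.P141.H664
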