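import Vale.Agent.P141.H664.CostLow
import Vale.Agent.P141.H927.LowBr

/-!
# P141, CE: the price with one low vector edge from the box bound

`cenStL3_of_box : BoxLow → H927.CenStL3`, and with the bridge of H927
`cenStL2_of_box : BoxLow → H927.CenStL2`.
-/

namespace Vale.Agent.P141.H664

/-- **The price in the costs of the level from the box bound.** -/
theorem cenStL3_of_box (H : BoxLow) : H927.CenStL3 := lowSt_of_box H

/-- **The price in the letters of the skeleton from the box bound.** -/
theorem cenStL2_of_box (H : BoxLow) : H927.CenStL2 :=
  H927.cenStL2_of_L3 (cenStL3_of_box H)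

end Vale.Agent.P141.H664
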